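import Vale.Agent.P065.Count

/-!
# P065: sets covered by few sets in convex position

If `P` has no three points on a line and is covered by `L` sets in convex position, then for
each `j` at most `8 |P| L` ordered pairs of `P` have exactly `j` points on the left of their line.
-/

open Vale.Agent.P065

namespace Vale.Agent.Results.P065.ConvexCover

/-- A vanishing oriented area gives collinearity. -/
theorem collinear_of_side_eq_zero {a b c : ℝ × ℝ} (hab : a ≠ b) (h : side a b c = 0) :
    Collinear ℝ ({a, b, c} : Set (ℝ × ℝ)) := by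
  rw [collinear_iff_of_mem (Set.mem_insert a _)]
  refine ⟨b - a, ?_⟩
  intro x hx
  simp only [Set.mem_insert_iff, Set.mem_singleton_iff] at hx
  unfold side at h
  rcases hx with rfl | rfl | rfl
  · exact ⟨0, by simp⟩
  · exact ⟨1, by simp⟩
  · by_cases h1 : b.1 = a.1
    · have h2 : b.2 - a.2 ≠ 0 := fun e => hab (Prod.ext h1.symm (by linarith))
      refine ⟨(x.2 - a.2) / (b.2 - a.2), ?_⟩
      rw [h1] at h
      have h3 : x.1 = a.1 := by
        have : (b.2 - a.2) * (x.1 - a.1) = 0 := by linear_combination -h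
        linarith [(mul_eq_zero.1 this).resolve_left h2]
      ext
      · simp [h1, h3]
      · simp [div_mul_cancel₀ _ h2]
    · have h1' : b.1 - a.1 ≠ 0 := sub_ne_zero.2 h1
      refine ⟨(x.1 - a.1) / (b.1 - a.1), ?_⟩
      ext
      · simp [div_mul_cancel₀ _ h1']
      · simp only [vadd_eq_add, Prod.snd_add, Prod.smul_snd, Prod.snd_sub, smul_eq_mul]
        rw [div_mul_eq_mul_div, div_add' _ _ _ h1', eq_div_iff h1']
        linear_combination h

/-- For a planar set with no three points on a line that is covered by `L` sets in convex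
position, at most `8 |P| L` ordered pairs have exactly `j` points on the left of their line. -/
theorem result :
    ∀ (P : Finset (ℝ × ℝ)) (L : ℕ) (cov : Fin L → Finset (ℝ × ℝ)),
      (∀ a ∈ P, ∀ b ∈ P, ∀ c ∈ P, a ≠ b → a ≠ c → b ≠ c →
        ¬ Collinear ℝ ({a, b, c} : Set (ℝ × ℝ))) →
      (∀ i, ConvexIndependent ℝ (Subtype.val : ↥(cov i : Set (ℝ × ℝ)) → ℝ × ℝ)) →
      (∀ p ∈ P, ∃ i, p ∈ cov i) →
      ∀ j : ℕ,
        ((P ×ˢ P).filter fun e => e.1 ≠ e.2 ∧
          (P.filter fun z =>
            0 < (e.2.1 - e.1.1) * (z.2 - e.1.2) - (e.2.2 - e.1.2) * (z.1 - e.1.1)).card = j).card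
          ≤ 8 * P.card * L := by
  intro P L cov hgp hconv hcov j
  refine card_pairs_le (fun a ha b hb c hc hab hac hbc h =>
    hgp a ha b hb c hc hab hac hbc (collinear_of_side_eq_zero hab h)) cov (fun i => ?_) hcov j
  exact convexIndependent_set_iff_notMem_convexHull_sdiff.1 (hconv i)

end Vale.Agent.Results.P065.ConvexCover
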